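import Vale.Agent.P026.Main

theorem Vale.Agent.Results.P026.QuasiRH.result :
    ∃ σ₀ : ℝ, σ₀ < 1 ∧ (∀ s : ℂ, σ₀ < s.re → riemannZeta s ≠ 0) ∧
      ∀ (q : ℕ) [NeZero q] (χ : DirichletCharacter ℂ q) (s : ℂ), σ₀ < s.re → (χ ≠ 1 ∨ s ≠ 1) →
        DirichletCharacter.LFunction χ s ≠ 0 := by
  refine ⟨383 / 384, by norm_num, ?_, ?_⟩
  · intro s hs
    by_cases hs1 : s = 1
    · exact riemannZeta_ne_zero_of_one_le_re (by simp [hs1])
    · have h := Vale.Agent.P026.main 1 (1 : DirichletCharacter ℂ 1) hs hs1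
      rwa [DirichletCharacter.LFunction_modOne_eq] at h
  · intro q _ χ s hs hχ
    by_cases hs1 : s = 1
    · exact DirichletCharacter.LFunction_ne_zero_of_one_le_re χ hχ (by simp [hs1])
    · exact Vale.Agent.P026.main q χ hs hs1
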